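import Mathlib

/-!
Ryser inequality for hypergraphs of maximum degree two or three.
-/

open Finset

namespace Vale.Agent.Results.P045.LowDegreeRyser

variable {V : Type} [DecidableEq V]

theorem card_le_of_degree (r d ν : ℕ) (_hr : 1 ≤ r) (S : Finset (Finset V))
    (hunif : ∀ e ∈ S, e.card = r) (hdeg : ∀ v, (S.filter fun e => v ∈ e).card ≤ d)
    (hν : ∀ M, M ⊆ S → (M : Set (Finset V)).PairwiseDisjoint id → M.card ≤ ν) :
    S.card ≤ ((d - 1) * r + 1) * ν := by
  classical
  have hne : (S.powerset.filter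
      fun M : Finset (Finset V) => (M : Set (Finset V)).PairwiseDisjoint id).Nonempty := ⟨∅, by simp⟩
  obtain ⟨M, hM, hmax⟩ := exists_max_image _ Finset.card hne
  simp only [mem_filter, mem_powerset] at hM hmax
  have hsub : S ⊆ M.biUnion fun f =>
      insert f (f.biUnion fun v => (S.filter fun e => v ∈ e).erase f) := by
    intro e he
    by_contra hcon
    simp only [mem_biUnion, mem_insert, mem_erase, mem_filter, not_exists, not_and, not_or] at hcon
    have heM : e ∉ M := fun h => (hcon e h).1 rfl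
    have hdisj : ∀ f ∈ M, Disjoint e f := fun f hf => disjoint_left.2 fun v hve hvf =>
      (hcon f hf).2 v hvf (hcon f hf).1 he hve
    have := hmax (insert e M) ⟨insert_subset he hM.1, ?_⟩
    · rw [card_insert_of_notMem heM] at this; omega
    · rw [coe_insert]
      exact hM.2.insert fun f hf _ => hdisj f hf
  have hstar : ∀ f ∈ M,
      (insert f (f.biUnion fun v => (S.filter fun e => v ∈ e).erase f)).card ≤ (d - 1) * r + 1 := by
    intro f hf
    refine (card_insert_le _ _).trans (Nat.add_le_add_right ?_ 1)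
    refine (card_biUnion_le_card_mul _ _ (d - 1) fun v hv => ?_).trans ?_
    · rw [card_erase_of_mem (mem_filter.2 ⟨hM.1 hf, hv⟩)]
      have := hdeg v
      omega
    · rw [hunif f (hM.1 hf), mul_comm]
  calc S.card ≤ M.card * ((d - 1) * r + 1) :=
        (card_le_card hsub).trans (card_biUnion_le_card_mul _ _ _ hstar)
    _ ≤ ν * ((d - 1) * r + 1) := Nat.mul_le_mul_right _ (hν M hM.1 hM.2)
    _ = _ := mul_comm _ _

theorem layer (k : ℕ) : ∀ (n : ℕ) (S : Finset (Finset V)), S.card = n →
    (∀ v, (S.filter fun e => v ∈ e).card ≤ k + 1) →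
    ∃ (C : Finset V) (S' : Finset (Finset V)), S' ⊆ S ∧
      (∀ v, (S'.filter fun e => v ∈ e).card ≤ k) ∧
      (∀ e ∈ S, e ∈ S' ∨ ∃ v ∈ C, v ∈ e) ∧ (k + 1) * C.card + S'.card ≤ S.card := by
  classical
  intro n
  induction n using Nat.strong_induction_on with
  | _ n ih =>
    intro S hn hdeg
    by_cases h : ∀ v, (S.filter fun e => v ∈ e).card ≤ k
    · exact ⟨∅, S, subset_rfl, h, fun e he => Or.inl he, by simp⟩
    · push Not at h
      obtain ⟨v, hv⟩ := h
      have hsplit := card_filter_add_card_filter_not (s := S) fun e => v ∈ e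
      set T := S.filter fun e => ¬ v ∈ e with hT
      obtain ⟨C, S', hS', hd, hcov, hcard⟩ := ih T.card (by omega) T rfl fun w =>
        (card_le_card (filter_subset_filter _ (filter_subset _ _))).trans (hdeg w)
      refine ⟨insert v C, S', hS'.trans (filter_subset _ _), hd, fun e he => ?_, ?_⟩
      · by_cases hve : v ∈ e
        · exact Or.inr ⟨v, mem_insert_self v C, hve⟩
        · rcases hcov e (mem_filter.2 ⟨he, hve⟩) with h1 | ⟨w, hw, hwe⟩
          · exact Or.inl h1
          · exact Or.inr ⟨w, mem_insert_of_mem hw, hwe⟩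
      · have := Nat.mul_le_mul_left (k + 1) (card_insert_le v C)
        rw [Nat.mul_add, Nat.mul_one] at this
        omega

theorem result (V : Type) [DecidableEq V] (r ν : ℕ) (H : Finset (Finset V))
    (hunif : ∀ e ∈ H, e.card = r)
    (hν : ∀ M, M ⊆ H → (M : Set (Finset V)).PairwiseDisjoint id → M.card ≤ ν)
    (hcase : (4 ≤ r ∧ ∀ v, (H.filter fun e => v ∈ e).card ≤ 2) ∨
      (12 ≤ r ∧ ∀ v, (H.filter fun e => v ∈ e).card ≤ 3)) :
    ∃ C : Finset V, (∀ e ∈ H, ∃ v ∈ C, v ∈ e) ∧ C.card ≤ (r - 1) * ν := by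
  classical
  have hr : 1 ≤ r := by omega
  -- a cover of the part of maximum degree two
  have htwo : ∀ S ⊆ H, (∀ v, (S.filter fun e => v ∈ e).card ≤ 2) →
      ∃ C : Finset V, (∀ e ∈ S, ∃ v ∈ C, v ∈ e) ∧ 2 * C.card ≤ S.card + ν := by
    intro S hS hdeg
    obtain ⟨C, S', hS', hd, hcov, hcard⟩ := layer 1 S.card S rfl hdeg
    obtain ⟨C', S'', hS'', hd', hcov', hcard'⟩ := layer 0 S'.card S' rfl hd
    have hS'ν : S'.card ≤ ν := by
      have := card_le_of_degree r 1 ν hr S' (fun e he => hunif e (hS (hS' he))) hd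
        fun M hM hp => hν M (hM.trans (hS'.trans hS)) hp
      simpa using this
    have hnone : ∀ e ∈ S', ∃ v ∈ C', v ∈ e := by
      intro e he
      rcases hcov' e he with h | h
      · obtain ⟨v, hv⟩ := card_pos.1 (hr.trans_eq (hunif e (hS (hS' he))).symm)
        have hpos : 0 < (S''.filter fun f => v ∈ f).card := card_pos.2 ⟨e, mem_filter.2 ⟨h, hv⟩⟩
        have := hd' v
        omega
      · exact h
    refine ⟨C ∪ C', fun e he => ?_, ?_⟩
    · rcases hcov e he with h | ⟨v, hv, hve⟩
      · obtain ⟨v, hv, hve⟩ := hnone e h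
        exact ⟨v, mem_union_right _ hv, hve⟩
      · exact ⟨v, mem_union_left _ hv, hve⟩
    · have := card_union_le C C'
      omega
  rcases hcase with ⟨hr4, hdeg⟩ | ⟨hr12, hdeg⟩
  · obtain ⟨C, hC, hcard⟩ := htwo H subset_rfl hdeg
    refine ⟨C, hC, ?_⟩
    have h1 := card_le_of_degree r 2 ν hr H hunif hdeg hν
    obtain ⟨s, rfl⟩ : ∃ s, r = s + 4 := ⟨r - 4, by omega⟩
    have e1 : s + 4 - 1 = s + 3 := by omega
    rw [e1]
    simp only [Nat.add_one_sub_one, one_mul] at h1
    nlinarith
  · obtain ⟨C, S, hS, hd, hcov, hcard⟩ := layer 2 H.card H rfl hdeg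
    obtain ⟨C', hC', hcard'⟩ := htwo S hS hd
    refine ⟨C ∪ C', fun e he => ?_, ?_⟩
    · rcases hcov e he with h | ⟨v, hv, hve⟩
      · obtain ⟨v, hv, hve⟩ := hC' e h
        exact ⟨v, mem_union_right _ hv, hve⟩
      · exact ⟨v, mem_union_left _ hv, hve⟩
    · have h1 := card_le_of_degree r 3 ν hr H hunif hdeg hν
      have h2 := card_le_of_degree r 2 ν hr S (fun e he => hunif e (hS he)) hd
        fun M hM hp => hν M (hM.trans hS) hp
      have := card_union_le C C'
      obtain ⟨s, rfl⟩ : ∃ s, r = s + 12 := ⟨r - 12, by omega⟩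
      have e1 : s + 12 - 1 = s + 11 := by omega
      rw [e1]
      simp only [Nat.add_one_sub_one, one_mul] at h2
      norm_num at h1
      nlinarith

end Vale.Agent.Results.P045.LowDegreeRyser
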