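import Vale.Agent.P045.Ryser.Core
import Vale.Agent.P045.Ryser.Plane
import Vale.Agent.P045.Ryser.Views
import Vale.Agent.P045.Ryser.Random
import Vale.Agent.P045.Ryser.Final

/-!
Ryser's conjecture is false, already for intersecting hypergraphs.
-/

namespace Vale.Agent.Results.P045.RyserFalse

open Vale.Agent.P045.Ryser

theorem result : ∀ N : ℕ, ∃ r : ℕ, N ≤ r ∧ 2 ≤ r ∧ ∃ (n : ℕ) (part : Fin n → Fin r)
    (edges : Finset (Finset (Fin n))),
    edges.Nonempty ∧
    (∀ e ∈ edges, ∀ i : Fin r, ∃! v, v ∈ e ∧ part v = i) ∧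
    (∀ M : Finset (Finset (Fin n)), M ⊆ edges →
      (∀ e ∈ M, ∀ f ∈ M, e ≠ f → Disjoint e f) → M.card ≤ 1) ∧
    (∀ C : Finset (Fin n), (∀ e ∈ edges, ∃ v ∈ C, v ∈ e) → (r - 1) * 1 < C.card) := by
  intro N
  obtain ⟨r, hN, hr, n, part, edges, hne, hpart, hint, hcov⟩ :=
    ryser_false_of_pins planePin viewsPin randomPin corePin N
  refine ⟨r, hN, hr, n, part, edges, hne, hpart, ?_, fun C hC => ?_⟩
  · intro M hM hdis
    rw [Finset.card_le_one]
    intro e he f hf
    by_contra hef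
    obtain ⟨v, hve, hvf⟩ := hint e (hM he) f (hM hf)
    exact Finset.disjoint_left.1 (hdis e he f hf hef) hve hvf
  · have := hcov C hC
    omega

end Vale.Agent.Results.P045.RyserFalse
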